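import Vale.Agent.P227.Lp.Defs
import Vale.Agent.P227.Defs
import Mathlib.Analysis.Convex.KreinMilman
import Mathlib.LinearAlgebra.CrossProduct

/-!
# P227: interpolating two symmetric polytopes

The sum `(1 - u) K + u L` is written as the Wulff body `mix K L u` of the interpolated support
function. A finite family of directions describing it at one interior parameter describes it at
all of them, so no normal fans are needed.
-/

namespace Vale.Agent.P227.Lp

open MeasureTheory Set Filter Topology Matrix Function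

noncomputable section

variable {ι : Type} [Fintype ι] {K L : Set V3}

omit [Fintype ι] in
theorem ctr_body {ν : ι → V3} {h : ι → ℝ} (hh : ∀ i, 0 ≤ h i) (hc : IsCompact (body ν h)) :
    Ctr (body ν h) where
  compact := hc
  convex := fun x hx y hy a b ha hb hab i => by
    rw [dotProduct_add, dotProduct_smul, dotProduct_smul, smul_eq_mul, smul_eq_mul]
    refine (abs_add_le _ _).trans ?_
    rw [abs_mul, abs_mul, abs_of_nonneg ha, abs_of_nonneg hb]
    calc a * |ν i ⬝ᵥ x| + b * |ν i ⬝ᵥ y| ≤ a * h i + b * h i :=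
          add_le_add (mul_le_mul_of_nonneg_left (hx i) ha) (mul_le_mul_of_nonneg_left (hy i) hb)
      _ = h i := by rw [← add_mul, hab, one_mul]
  nonempty := ⟨0, fun i => by simpa using hh i⟩
  neg_mem := fun x hx i => by simpa [dotProduct_neg] using hx i

/-- The interpolated support function. -/
def sp (K L : Set V3) (u : ℝ) (w : V3) : ℝ := (1 - u) * supp K w + u * supp L w

/-- The Wulff body of the interpolated support function. -/
def mix (K L : Set V3) (u : ℝ) : Set V3 := {z | ∀ w : V3, w ⬝ᵥ z ≤ sp K L u w}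

theorem abs_le_sp (hK : Ctr K) (hL : Ctr L) {u : ℝ} {z : V3} (hz : z ∈ mix K L u) (w : V3) :
    |w ⬝ᵥ z| ≤ sp K L u w := by
  refine abs_le'.2 ⟨hz w, ?_⟩
  have h := hz (-w)
  rwa [neg_dotProduct, sp, supp_neg hK, supp_neg hL] at h

/-- A family describing the interpolated body at one interior parameter describes it at all. -/
theorem cancel (hK : Ctr K) (hL : Ctr L) {κ : Type} (w : κ → V3) {u₀ : ℝ} (h0 : 0 < u₀)
    (h1 : u₀ < 1) (hb : ∀ z, (∀ k, |w k ⬝ᵥ z| ≤ sp K L u₀ (w k)) → z ∈ mix K L u₀)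
    {u : ℝ} (_hu0 : 0 ≤ u) (_hu1 : u ≤ 1) {z : V3} (hz : ∀ k, |w k ⬝ᵥ z| ≤ sp K L u (w k)) :
    z ∈ mix K L u := by
  intro v
  rcases le_total u u₀ with h | h
  · obtain ⟨y, hy, hyv⟩ := exists_supp hL v
    set a := (1 - u₀) / (1 - u)
    have hu : 0 < 1 - u := by linarith
    have ha : 0 < a := div_pos (by linarith) hu
    have ha1 : a ≤ 1 := by rw [div_le_one hu]; linarith
    have hau : a * (1 - u) = 1 - u₀ := div_mul_cancel₀ _ hu.ne'
    have hau' : a * u + (1 - a) = u₀ := by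
      have : a * (1 - u) = a - a * u := by ring
      linarith
    have hsp : ∀ x, a * sp K L u x + (1 - a) * supp L x = sp K L u₀ x := fun x => by
      rw [sp, sp, ← hau, ← hau']
      ring
    have hq : a • z + (1 - a) • y ∈ mix K L u₀ := hb _ fun k => by
      rw [dotProduct_add, dotProduct_smul, dotProduct_smul, smul_eq_mul, smul_eq_mul, ← hsp]
      refine (abs_add_le _ _).trans ?_
      rw [abs_mul, abs_mul, abs_of_pos ha, abs_of_nonneg (by linarith : 0 ≤ 1 - a)]
      exact add_le_add (mul_le_mul_of_nonneg_left (hz k) ha.le)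
        (mul_le_mul_of_nonneg_left (abs_le_supp hL hy _) (by linarith))
    have := hq v
    rw [dotProduct_add, dotProduct_smul, dotProduct_smul, smul_eq_mul, smul_eq_mul, hyv, ← hsp]
      at this
    exact le_of_mul_le_mul_left (by linarith) ha
  · obtain ⟨y, hy, hyv⟩ := exists_supp hK v
    set a := u₀ / u
    have hu : 0 < u := by linarith
    have ha : 0 < a := div_pos h0 hu
    have ha1 : a ≤ 1 := by rw [div_le_one hu]; linarith
    have hau : a * u = u₀ := div_mul_cancel₀ _ hu.ne'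
    have hsp : ∀ x, a * sp K L u x + (1 - a) * supp K x = sp K L u₀ x := fun x => by
      rw [sp, sp, ← hau]
      ring
    have hq : a • z + (1 - a) • y ∈ mix K L u₀ := hb _ fun k => by
      rw [dotProduct_add, dotProduct_smul, dotProduct_smul, smul_eq_mul, smul_eq_mul, ← hsp]
      refine (abs_add_le _ _).trans ?_
      rw [abs_mul, abs_mul, abs_of_pos ha, abs_of_nonneg (by linarith : 0 ≤ 1 - a)]
      exact add_le_add (mul_le_mul_of_nonneg_left (hz k) ha.le)
        (mul_le_mul_of_nonneg_left (abs_le_supp hK hy _) (by linarith))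
    have := hq v
    rw [dotProduct_add, dotProduct_smul, dotProduct_smul, smul_eq_mul, smul_eq_mul, hyv, ← hsp]
      at this
    exact le_of_mul_le_mul_left (by linarith) ha

theorem exists_dot (f : StrongDual ℝ V3) : ∃ w : V3, ∀ z : V3, f z = w ⬝ᵥ z := by
  refine ⟨fun k => f (Pi.single k 1), fun z => ?_⟩
  conv_lhs => rw [← Finset.univ_sum_single z, map_sum]
  refine Finset.sum_congr rfl fun k _ => ?_
  rw [show Pi.single k (z k) = z k • (Pi.single k (1 : ℝ) : V3) by
    rw [← Pi.single_smul, smul_eq_mul, mul_one], map_smul, smul_eq_mul, mul_comm]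

/-- Points of the interpolated body split between the two bodies. -/
theorem exists_split (hK : Ctr K) (hL : Ctr L) {u : ℝ} {z : V3}
    (hz : z ∈ mix K L u) : ∃ x ∈ K, ∃ y ∈ L, z = (1 - u) • x + u • y := by
  by_contra h
  set S := (fun p : V3 × V3 => (1 - u) • p.1 + u • p.2) '' (K ×ˢ L)
  have hS : z ∉ S := by
    rintro ⟨⟨x, y⟩, ⟨hx, hy⟩, rfl⟩
    exact h ⟨x, hx, y, hy, rfl⟩
  have hc : IsCompact S := (hK.compact.prod hL.compact).image (by fun_prop)
  have hconv : Convex ℝ S := by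
    rintro _ ⟨p, hp, rfl⟩ _ ⟨q, hq, rfl⟩ a b ha hb hab
    refine ⟨a • p + b • q, (hK.convex.prod hL.convex) hp hq ha hb hab, ?_⟩
    simp only [Prod.fst_add, Prod.snd_add, Prod.smul_fst, Prod.smul_snd]
    module
  obtain ⟨f, c, hf, hfz⟩ := geometric_hahn_banach_closed_point hconv hc.isClosed hS
  obtain ⟨w, hw⟩ := exists_dot f
  obtain ⟨x, hx, hxw⟩ := exists_supp hK w
  obtain ⟨y, hy, hyw⟩ := exists_supp hL w
  have h1 := hf _ ⟨(x, y), ⟨hx, hy⟩, rfl⟩
  rw [hw, dotProduct_add, dotProduct_smul, dotProduct_smul, smul_eq_mul, smul_eq_mul, hxw, hyw] at h1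
  rw [hw] at hfz
  have := hz w
  rw [sp] at this
  linarith

theorem comb_mem_mix (hK : Ctr K) (hL : Ctr L) {u : ℝ} (hu0 : 0 ≤ u) (hu1 : u ≤ 1) {x y : V3}
    (hx : x ∈ K) (hy : y ∈ L) : (1 - u) • x + u • y ∈ mix K L u := fun w => by
  rw [dotProduct_add, dotProduct_smul, dotProduct_smul, smul_eq_mul, smul_eq_mul, sp]
  exact add_le_add (mul_le_mul_of_nonneg_left (le_supp hK hx w) (by linarith))
    (mul_le_mul_of_nonneg_left (le_supp hL hy w) hu0)

/-- A bounded system of finitely many linear inequalities has finitely many extreme points. -/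
theorem extreme_finite {κ : Type} [Finite κ] (w : κ → V3) (c : κ → ℝ) :
    ({x : V3 | ∀ k, w k ⬝ᵥ x ≤ c k}.extremePoints ℝ).Finite := by
  refine Set.Finite.of_finite_image (f := fun x => {k | w k ⬝ᵥ x = c k}) (Set.toFinite _)
    fun x hx y hy hxy => ?_
  have hev : ∀ᶠ e in 𝓝[>] (0 : ℝ), ∀ k, w k ⬝ᵥ (x + e • (y - x)) ≤ c k ∧
      w k ⬝ᵥ (x - e • (y - x)) ≤ c k := by
    rw [eventually_all]
    intro k
    simp only [dotProduct_add, dotProduct_sub, dotProduct_smul, smul_eq_mul]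
    by_cases hk : w k ⬝ᵥ x = c k
    · have hk' : w k ⬝ᵥ y = c k := by
        exact (Set.ext_iff.1 hxy k).1 hk
      exact Eventually.of_forall fun e => by rw [hk, hk']; simp
    · have hlt : w k ⬝ᵥ x < c k := lt_of_le_of_ne (hx.1 k) hk
      have h1 : Tendsto (fun e : ℝ => w k ⬝ᵥ x + e * (w k ⬝ᵥ y - w k ⬝ᵥ x)) (𝓝 0)
          (𝓝 (w k ⬝ᵥ x)) := by
        simpa using ((continuous_id (X := ℝ)).mul_const (w k ⬝ᵥ y - w k ⬝ᵥ x)).const_add
          (w k ⬝ᵥ x) |>.tendsto 0
      have h2 : Tendsto (fun e : ℝ => w k ⬝ᵥ x - e * (w k ⬝ᵥ y - w k ⬝ᵥ x)) (𝓝 0)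
          (𝓝 (w k ⬝ᵥ x)) := by
        simpa using (continuous_const.sub
          ((continuous_id (X := ℝ)).mul_const (w k ⬝ᵥ y - w k ⬝ᵥ x))).tendsto 0
            (f := fun e : ℝ => w k ⬝ᵥ x - e * (w k ⬝ᵥ y - w k ⬝ᵥ x))
      exact nhdsWithin_le_nhds ((h1.eventually (eventually_le_nhds hlt)).and
        (h2.eventually (eventually_le_nhds hlt)))
  obtain ⟨e, he, hepos⟩ := (hev.and self_mem_nhdsWithin).exists
  have hseg : x ∈ openSegment ℝ (x + e • (y - x)) (x - e • (y - x)) :=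
    ⟨1 / 2, 1 / 2, by norm_num, by norm_num, by norm_num, by module⟩
  have h := hx.2 (fun k => (he k).1) (fun k => (he k).2) hseg
  have h' : e • (y - x) = 0 := add_eq_left.1 h
  exact (sub_eq_zero.1 ((smul_eq_zero.1 h').resolve_left (ne_of_gt hepos))).symm

/-- Finitely many directions describe the midpoint of two polytopes. -/
theorem exists_normals {N : ℕ} (ν : Fin N → V3) {a b : Fin N → ℝ} (hcK : IsCompact (body ν a))
    (hcL : IsCompact (body ν b)) (ha : ∀ i, 0 < a i) (hb : ∀ i, 0 < b i) :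
    ∃ W : Finset V3, ∀ z, (∀ w ∈ W, |w ⬝ᵥ z| ≤ sp (body ν a) (body ν b) (1 / 2) w) →
      z ∈ mix (body ν a) (body ν b) (1 / 2) := by
  set K := body ν a
  set L := body ν b
  have hK : Ctr K := ctr_body (fun i => (ha i).le) hcK
  have hL : Ctr L := ctr_body (fun i => (hb i).le) hcL
  have hfin : ∀ c : Fin N → ℝ, ((body ν c).extremePoints ℝ).Finite := fun c => by
    have e : body ν c = {x : V3 | ∀ k : Fin N ⊕ Fin N, Sum.elim ν (-ν) k ⬝ᵥ x ≤ Sum.elim c c k} := by
      ext x
      simp [body, Sum.forall, abs_le', forall_and, neg_dotProduct]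
    rw [e]
    exact extreme_finite _ _
  have hmax : ∀ (c : Fin N → ℝ), Ctr (body ν c) → ∀ w : V3,
      ∃ x ∈ (body ν c).extremePoints ℝ, supp (body ν c) w ≤ w ⬝ᵥ x := by
    intro c hC w
    have hne : ((hfin c).toFinset).Nonempty := by
      rw [Set.Finite.toFinset_nonempty]
      exact hC.compact.extremePoints_nonempty hC.nonempty
    obtain ⟨x, hx, hmax⟩ := Finset.exists_max_image (hfin c).toFinset (w ⬝ᵥ ·) hne
    rw [Set.Finite.mem_toFinset] at hx
    refine ⟨x, hx, supp_le hC fun y hy => ?_⟩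
    rw [← closure_convexHull_extremePoints hC.compact hC.convex] at hy
    refine closure_minimal (convexHull_min (fun e he => ?_) ?_)
      (isClosed_le (continuous_dot w) continuous_const) hy
    · exact hmax e ((hfin c).mem_toFinset.2 he)
    · exact convex_halfSpace_le ⟨dotProduct_add w, fun r x => dotProduct_smul r w x⟩ _
  set P : Set (V3 × V3) := (K.extremePoints ℝ) ×ˢ (L.extremePoints ℝ)
  have : Finite P := ((hfin a).prod (hfin b)).to_subtype
  set mid : P → V3 := fun p => (1 / 2 : ℝ) • p.1.1 + (1 / 2 : ℝ) • p.1.2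
  set U : Set V3 := {w | ∀ p : P, mid p ⬝ᵥ w ≤ 1}
  have hattain : ∀ w : V3, ∃ p : P, sp K L (1 / 2) w ≤ mid p ⬝ᵥ w := fun w => by
    obtain ⟨x, hx, hxw⟩ := hmax a hK w
    obtain ⟨y, hy, hyw⟩ := hmax b hL w
    refine ⟨⟨(x, y), hx, hy⟩, ?_⟩
    simp only [mid, add_dotProduct, smul_dotProduct, smul_eq_mul, sp, dotProduct_comm x,
      dotProduct_comm y]
    linarith
  have hsmall : ∀ (c : Fin N → ℝ), (∀ i, 0 < c i) → ∀ᶠ x : V3 in 𝓝 0, x ∈ body ν c := by
    intro c hc
    refine eventually_all.2 fun i => ?_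
    have h : Tendsto (fun x : V3 => |ν i ⬝ᵥ x|) (𝓝 0) (𝓝 0) := by
      simpa using ((continuous_dot (ν i)).abs).tendsto 0
    exact h.eventually (eventually_le_nhds (hc i))
  obtain ⟨δ, hδ, hball⟩ := Metric.eventually_nhds_iff.1 ((hsmall a ha).and (hsmall b hb))
  have hlow : ∀ (w : V3) (k : Fin 3), δ / 2 * |w k| ≤ sp K L (1 / 2) w := by
    intro w k
    set x : V3 := Pi.single k (δ / 2)
    have hx : dist x 0 < δ := by
      rw [dist_zero_right, Pi.norm_single, Real.norm_eq_abs, abs_of_pos (half_pos hδ)]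
      linarith
    have h := hball hx
    have h1 := abs_le_supp hK h.1 w
    have h2 := abs_le_supp hL h.2 w
    rw [dotProduct_single, abs_mul, abs_of_pos (half_pos hδ)] at h1 h2
    rw [sp, mul_comm (δ / 2)]
    linarith
  have hUc : IsCompact U := by
    refine (isCompact_univ_pi fun _ : Fin 3 =>
      isCompact_Icc (a := -(2 / δ)) (b := 2 / δ)).of_isClosed_subset ?_ fun w hw k _ => ?_
    · simp only [U, Set.ofPred_forall]
      exact isClosed_iInter fun p => isClosed_le (continuous_dot _) continuous_const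
    · obtain ⟨p, hp⟩ := hattain w
      have h := (hlow w k).trans (hp.trans (hw p))
      refine abs_le.1 ?_
      rw [le_div_iff₀ hδ]
      linarith
  have hUconv : Convex ℝ U := fun x hx y hy c d hc hd hcd p => by
    rw [dotProduct_add, dotProduct_smul, dotProduct_smul, smul_eq_mul, smul_eq_mul]
    calc c * (mid p ⬝ᵥ x) + d * (mid p ⬝ᵥ y) ≤ c * 1 + d * 1 :=
          add_le_add (mul_le_mul_of_nonneg_left (hx p) hc) (mul_le_mul_of_nonneg_left (hy p) hd)
      _ = 1 := by linarith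
  have hWfin : (U.extremePoints ℝ).Finite := extreme_finite mid fun _ => 1
  refine ⟨hWfin.toFinset, fun z hz w => ?_⟩
  have hsub : ∀ v ∈ U, z ⬝ᵥ v ≤ 1 := fun v hv => by
    rw [← closure_convexHull_extremePoints hUc hUconv] at hv
    refine closure_minimal (convexHull_min (fun e he => ?_) ?_)
      (isClosed_le (continuous_dot z) continuous_const) hv
    · obtain ⟨p, hp⟩ := hattain e
      have h1 := (le_abs_self _).trans (hz e (hWfin.mem_toFinset.2 he))
      rw [dotProduct_comm] at h1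
      exact h1.trans (hp.trans (he.1 p))
    · exact fun x hx y hy c d hc hd hcd => by
        simp only [Set.mem_ofPred_eq, dotProduct_add, dotProduct_smul, smul_eq_mul] at *
        calc c * (z ⬝ᵥ x) + d * (z ⬝ᵥ y) ≤ c * 1 + d * 1 :=
              add_le_add (mul_le_mul_of_nonneg_left hx hc) (mul_le_mul_of_nonneg_left hy hd)
          _ = 1 := by linarith
  rcases eq_or_ne w 0 with rfl | hw
  · rw [zero_dotProduct, sp]
    nlinarith [supp_nonneg hK (0 : V3), supp_nonneg hL (0 : V3)]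
  obtain ⟨k, hk⟩ := Function.ne_iff.1 hw
  have hm : 0 < sp K L (1 / 2) w :=
    (mul_pos (half_pos hδ) (abs_pos.2 hk)).trans_le (hlow w k)
  have hU : (sp K L (1 / 2) w)⁻¹ • w ∈ U := fun p => by
    rw [dotProduct_smul, smul_eq_mul, inv_mul_le_iff₀ hm, mul_one, dotProduct_comm]
    have h := comb_mem_mix hK hL (u := 1 / 2) (by norm_num) (by norm_num) p.2.1.1 p.2.2.1 w
    simp only [mid]
    norm_num at h ⊢
    exact h
  have h := hsub _ hU
  rw [dotProduct_smul, smul_eq_mul, inv_mul_le_iff₀ hm, mul_one, dotProduct_comm] at h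
  exact h

theorem parallel_of_cross {a b : V3} (hb : b ≠ 0) (h : crossProduct a b = 0) :
    ∃ c : ℝ, a = c • b := by
  refine ⟨(b ⬝ᵥ a) / (b ⬝ᵥ b), ?_⟩
  have hbb : b ⬝ᵥ b ≠ 0 := fun h0 => hb (dotProduct_self_eq_zero.1 h0)
  have h1 := cross_cross_eq_smul_sub_smul a b b
  rw [h, LinearMap.map_zero₂, eq_comm, sub_eq_zero, dotProduct_comm a b] at h1
  rw [div_eq_inv_mul, ← smul_smul, h1, smul_smul, inv_mul_cancel₀ hbb, one_smul]

/-- Directions orthogonal to two independent vectors are multiples of their cross product. -/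
theorem mem_cross {a b d : V3} (hab : crossProduct a b ≠ 0) (ha : a ⬝ᵥ d = 0) (hb : b ⬝ᵥ d = 0) :
    ∃ c : ℝ, d = c • crossProduct a b := by
  refine parallel_of_cross hab ?_
  rw [← neg_eq_zero, cross_anticomm, cross_cross_eq_smul_sub_smul, ha, hb]
  simp

/-- The face exposed by `a` and `b` together. -/
def face (K : Set V3) (a b : V3) : Set V3 :=
  {x | x ∈ K ∧ a ⬝ᵥ x = supp K a ∧ b ⬝ᵥ x = supp K b}

/-- Its extent along `a × b`. -/
def span2 (K : Set V3) (a b : V3) : Set ℝ :=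
  {s | ∃ x ∈ face K a b, x + s • crossProduct a b ∈ face K a b}

theorem bddAbove_span2 (hK : Ctr K) {a b : V3} (hab : crossProduct a b ≠ 0) :
    BddAbove (span2 K a b) := by
  set w := crossProduct a b
  have hw : w ⬝ᵥ w ≠ 0 := fun h => hab (dotProduct_self_eq_zero.1 h)
  refine ((hK.compact.prod hK.compact).image (f := fun p : V3 × V3 =>
    (w ⬝ᵥ p.2 - w ⬝ᵥ p.1) / (w ⬝ᵥ w)) ?_).bddAbove.mono ?_
  · exact (((continuous_dot w).comp continuous_snd).sub
      ((continuous_dot w).comp continuous_fst)).div_const _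
  · rintro s ⟨x, hx, hxs⟩
    refine ⟨(x, x + s • w), ⟨hx.1, hxs.1⟩, ?_⟩
    simp only [dotProduct_add, dotProduct_smul, smul_eq_mul, add_sub_cancel_left]
    exact mul_div_cancel_right₀ _ hw

/-- The extent of a common face is affine in the parameter. -/
theorem span2_mix (hK : Ctr K) (hL : Ctr L) {a b : V3} (hab : crossProduct a b ≠ 0) :
    ∃ e₀ e₁ : ℝ, ∀ u, 0 < u → u < 1 →
      sSup {s : ℝ | ∃ x, (x ∈ mix K L u ∧ a ⬝ᵥ x = sp K L u a ∧ b ⬝ᵥ x = sp K L u b) ∧
        (x + s • crossProduct a b ∈ mix K L u ∧ a ⬝ᵥ (x + s • crossProduct a b) = sp K L u a ∧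
          b ⬝ᵥ (x + s • crossProduct a b) = sp K L u b)} = e₀ + e₁ * u := by
  set w := crossProduct a b
  have hsplit : ∀ u, 0 < u → u < 1 → ∀ z, z ∈ mix K L u → a ⬝ᵥ z = sp K L u a →
      b ⬝ᵥ z = sp K L u b → ∃ x ∈ face K a b, ∃ y ∈ face L a b, z = (1 - u) • x + u • y := by
    intro u h0 h1 z hz hza hzb
    obtain ⟨x, hx, y, hy, rfl⟩ := exists_split hK hL hz
    have key : ∀ v, v ⬝ᵥ ((1 - u) • x + u • y) = sp K L u v →
        v ⬝ᵥ x = supp K v ∧ v ⬝ᵥ y = supp L v := by
      intro v hv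
      rw [dotProduct_add, dotProduct_smul, dotProduct_smul, smul_eq_mul, smul_eq_mul, sp] at hv
      have hxv := le_supp hK hx v
      have hyv := le_supp hL hy v
      have h2 := mul_le_mul_of_nonneg_left hxv (by linarith : 0 ≤ 1 - u)
      have h3 := mul_le_mul_of_nonneg_left hyv h0.le
      exact ⟨le_antisymm hxv (le_of_mul_le_mul_left (by linarith) (by linarith : 0 < 1 - u)),
        le_antisymm hyv (le_of_mul_le_mul_left (by linarith) h0)⟩
    exact ⟨x, ⟨hx, (key a hza).1, (key b hzb).1⟩, y, ⟨hy, (key a hza).2, (key b hzb).2⟩, rfl⟩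
  have hjoin : ∀ u, 0 < u → u < 1 → ∀ x ∈ face K a b, ∀ y ∈ face L a b,
      (1 - u) • x + u • y ∈ mix K L u ∧ a ⬝ᵥ ((1 - u) • x + u • y) = sp K L u a ∧
        b ⬝ᵥ ((1 - u) • x + u • y) = sp K L u b := by
    intro u h0 h1 x hx y hy
    refine ⟨comb_mem_mix hK hL h0.le h1.le hx.1 hy.1, ?_, ?_⟩ <;>
      simp only [dotProduct_add, dotProduct_smul, smul_eq_mul, sp, hx.2.1, hx.2.2, hy.2.1, hy.2.2]
  by_cases hne : (face K a b).Nonempty ∧ (face L a b).Nonempty
  · obtain ⟨⟨x₀, hx₀⟩, ⟨y₀, hy₀⟩⟩ := hne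
    refine ⟨sSup (span2 K a b), sSup (span2 L a b) - sSup (span2 K a b), fun u h0 h1 => ?_⟩
    have hsK : (0 : ℝ) ∈ span2 K a b := ⟨x₀, hx₀, by simpa using hx₀⟩
    have hsL : (0 : ℝ) ∈ span2 L a b := ⟨y₀, hy₀, by simpa using hy₀⟩
    have hB1 := bddAbove_span2 hK hab
    have hB2 := bddAbove_span2 hL hab
    set T := {s : ℝ | ∃ x, (x ∈ mix K L u ∧ a ⬝ᵥ x = sp K L u a ∧ b ⬝ᵥ x = sp K L u b) ∧
      (x + s • w ∈ mix K L u ∧ a ⬝ᵥ (x + s • w) = sp K L u a ∧ b ⬝ᵥ (x + s • w) = sp K L u b)}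
    have hle : ∀ s ∈ T, s ≤ (1 - u) * sSup (span2 K a b) + u * sSup (span2 L a b) := by
      rintro s ⟨z, ⟨hz, hza, hzb⟩, hz', hza', hzb'⟩
      obtain ⟨x, hx, y, hy, rfl⟩ := hsplit u h0 h1 z hz hza hzb
      obtain ⟨x', hx', y', hy', he⟩ := hsplit u h0 h1 _ hz' hza' hzb'
      obtain ⟨c, hc⟩ := mem_cross hab (d := x' - x)
        (by rw [dotProduct_sub, hx'.2.1, hx.2.1, sub_self])
        (by rw [dotProduct_sub, hx'.2.2, hx.2.2, sub_self])
      obtain ⟨d, hd⟩ := mem_cross hab (d := y' - y)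
        (by rw [dotProduct_sub, hy'.2.1, hy.2.1, sub_self])
        (by rw [dotProduct_sub, hy'.2.2, hy.2.2, sub_self])
      obtain rfl : x' = x + c • w := by rw [← hc]; abel
      obtain rfl : y' = y + d • w := by rw [← hd]; abel
      have hs : (s - ((1 - u) * c + u * d)) • w = 0 := by
        have e2 := sub_eq_zero.2 he
        rw [← e2]
        module
      rw [sub_eq_zero.1 ((smul_eq_zero.1 hs).resolve_right hab)]
      exact add_le_add (mul_le_mul_of_nonneg_left (le_csSup hB1 ⟨x, hx, hx'⟩) (by linarith))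
        (mul_le_mul_of_nonneg_left (le_csSup hB2 ⟨y, hy, hy'⟩) h0.le)
    have hge : ∀ c ∈ span2 K a b, ∀ d ∈ span2 L a b, (1 - u) * c + u * d ∈ T := by
      rintro c ⟨x, hx, hx'⟩ d ⟨y, hy, hy'⟩
      have h := hjoin u h0 h1 _ hx' _ hy'
      rw [show (1 - u) • (x + c • w) + u • (y + d • w)
        = (1 - u) • x + u • y + ((1 - u) * c + u * d) • w by module] at h
      exact ⟨_, hjoin u h0 h1 x hx y hy, h⟩
    have hT : BddAbove T := ⟨_, hle⟩
    have hTne : T.Nonempty := ⟨_, hge 0 hsK 0 hsL⟩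
    rw [show sSup (span2 K a b) + (sSup (span2 L a b) - sSup (span2 K a b)) * u
      = (1 - u) * sSup (span2 K a b) + u * sSup (span2 L a b) by ring]
    refine le_antisymm (csSup_le hTne hle) ?_
    have h2 : sSup (span2 L a b) ≤ (sSup T - (1 - u) * sSup (span2 K a b)) / u := by
      refine csSup_le ⟨0, hsL⟩ fun d hd => ?_
      rw [le_div_iff₀ h0, le_sub_iff_add_le, ← le_sub_iff_add_le']
      rw [← le_div_iff₀' (by linarith : (0 : ℝ) < 1 - u)]
      refine csSup_le ⟨0, hsK⟩ fun c hc => ?_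
      rw [le_div_iff₀' (by linarith : (0 : ℝ) < 1 - u)]
      linarith [le_csSup hT (hge c hc d hd)]
    rw [le_div_iff₀ h0] at h2
    linarith
  · refine ⟨0, 0, fun u h0 h1 => ?_⟩
    rw [zero_mul, add_zero]
    convert Real.sSup_empty
    refine Set.eq_empty_of_forall_notMem ?_
    rintro s ⟨z, ⟨hz, hza, hzb⟩, -⟩
    obtain ⟨x, hx, y, hy, -⟩ := hsplit u h0 h1 z hz hza hzb
    exact hne ⟨⟨x, hx⟩, ⟨y, hy⟩⟩

end

end Vale.Agent.P227.Lp
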